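import Mathlib.Algebra.Order.Archimedean.Real.Hom
import Mathlib.Algebra.Order.Ring.Star
import Mathlib.Algebra.Order.Star.Real
import Mathlib.Algebra.Ring.IsFormallyReal
import Mathlib.Analysis.CStarAlgebra.Classes
import Mathlib.Analysis.Calculus.FDeriv.Norm
import Mathlib.Analysis.Calculus.FDeriv.Symmetric
import Mathlib.Analysis.Calculus.Rademacher
import Mathlib.Analysis.InnerProductSpace.OfNorm
import Mathlib.Analysis.Normed.Module.Connected
import Mathlib.Analysis.Normed.Module.DoubleDual
import Mathlib.Analysis.Real.Pi.Bounds
import Mathlib.Analysis.SpecialFunctions.ImproperIntegrals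
import Mathlib.Analysis.SpecialFunctions.PolarCoord
import Mathlib.Data.Finset.Functor
import Mathlib.LinearAlgebra.Complex.FiniteDimensional
import Mathlib.MeasureTheory.Integral.IntervalIntegral.AbsolutelyContinuousFun
import Mathlib.Order.CompletePartialOrder
import Mathlib.Order.Filter.Partial
import Mathlib.RingTheory.Etale.Weakly
import Mathlib.RingTheory.Flat.TorsionFree
import Mathlib.RingTheory.RegularLocalRing.Defs
import Mathlib.RingTheory.SimpleRing.Principal
import Mathlib.RingTheory.TotallySplit
import Mathlib.Tactic
import Mathlib.Topology.MetricSpace.HausdorffDimension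
import Mathlib.Topology.UniformSpace.Uniformizable

/-! The part of Mathlib that the development of this folder uses. -/
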